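import Mathlib

/-!
Compression of a family of sets by lattice operations, and the bound it gives for the sum of a
log-supermodular function on `(Finset (Fin N))^ι` by the `N`th power of a sum on `Bool^ι`.
-/

namespace Vale.Agent.P050.Lsm

open Finset

/-- Nonnegative log-supermodular. -/
structure LSM {α : Type*} [Lattice α] (f : α → ℝ) : Prop where
  nonneg : ∀ x, 0 ≤ f x
  mul_le : ∀ x y, f x * f y ≤ f (x ⊓ y) * f (x ⊔ y)

/-- Points in at least `k` of the sets. -/
def Lev {ι P : Type*} [Fintype P] [DecidableEq P] (s : Finset ι) (Z : ι → Finset P) (k : ℕ) :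
    Finset P :=
  univ.filter fun p => k ≤ #(s.filter fun j => p ∈ Z j)

theorem compress {ι P : Type*} [Fintype P] [DecidableEq P] {w : Finset P → ℝ} (hw : LSM w)
    (Z : ι → Finset P) (s : Finset ι) :
    ∏ j ∈ s, w (Z j) ≤ ∏ k ∈ range #s, w (Lev s Z (k + 1)) := by
  classical
  induction s using Finset.induction_on with
  | empty => simp
  | @insert a s ha ih =>
    set T := Z a
    set D := Lev s Z with hD
    have hanti : ∀ k, D (k + 1) ⊆ D k := fun k p hp => by
      simp only [hD, Lev, mem_filter, mem_univ, true_and] at hp ⊢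
      omega
    have hD0 : D 0 = univ := by ext p; simp [hD, Lev]
    have hnew : ∀ k, Lev (insert a s) Z (k + 1) = (T ∩ D k) ∪ D (k + 1) := fun k => by
      ext p
      simp only [hD, Lev, mem_filter, mem_univ, true_and, mem_union, mem_inter, filter_insert, T]
      by_cases hp : p ∈ Z a
      · rw [if_pos hp, card_insert_of_notMem (by simp [ha])]
        simp only [hp, true_and]
        omega
      · simp [hp]
    have key : ∀ j ≤ #s, w T * ∏ k ∈ range j, w (D (k + 1)) ≤
        (∏ k ∈ range j, w (Lev (insert a s) Z (k + 1))) * w (T ∩ D j) := by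
      intro j hj
      induction j with
      | zero => simp [hD0]
      | succ j ihj =>
        rw [prod_range_succ, prod_range_succ, hnew j]
        have h1 : w (T ∩ D j) * w (D (j + 1)) ≤
            w ((T ∩ D j) ∪ D (j + 1)) * w (T ∩ D (j + 1)) := by
          have h := hw.mul_le (T ∩ D j) (D (j + 1))
          have e : (T ∩ D j) ∩ D (j + 1) = T ∩ D (j + 1) := by
            rw [inter_assoc, inter_eq_right.2 (hanti j)]
          rw [inf_eq_inter, sup_eq_union, e] at h
          linarith [mul_comm (w (T ∩ D (j + 1))) (w ((T ∩ D j) ∪ D (j + 1)))]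
        calc w T * ((∏ k ∈ range j, w (D (k + 1))) * w (D (j + 1)))
            = (w T * ∏ k ∈ range j, w (D (k + 1))) * w (D (j + 1)) := by ring
          _ ≤ (∏ k ∈ range j, w (Lev (insert a s) Z (k + 1))) * w (T ∩ D j) * w (D (j + 1)) :=
              mul_le_mul_of_nonneg_right (ihj (by omega)) (hw.nonneg _)
          _ = (∏ k ∈ range j, w (Lev (insert a s) Z (k + 1))) *
                (w (T ∩ D j) * w (D (j + 1))) := by ring
          _ ≤ _ := (mul_le_mul_of_nonneg_left h1
              (prod_nonneg fun k _ => hw.nonneg _)).trans_eq (by ring)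
    have htop : D (#s + 1) = ∅ := by
      ext p
      simp only [hD, Lev, mem_filter, mem_univ, true_and, notMem_empty, iff_false, not_le]
      exact Nat.lt_succ_of_le (card_filter_le _ _)
    rw [prod_insert ha, card_insert_of_notMem ha, prod_range_succ, hnew #s, htop, union_empty]
    exact (mul_le_mul_of_nonneg_left ih (hw.nonneg _)).trans (key _ le_rfl)

theorem lt_card_iff {N : ℕ} {c : Fin N → ℕ} (hc : Antitone c) (k : ℕ) (i : Fin N) :
    (i : ℕ) < #(univ.filter fun j => k ≤ c j) ↔ k ≤ c i := by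
  constructor
  · intro h
    by_contra hi
    have hsub : (univ.filter fun j => k ≤ c j) ⊆ Iio i := fun j hj => by
      rw [mem_Iio]
      by_contra hji
      exact hi (le_trans (mem_filter.1 hj).2 (hc (not_lt.1 hji)))
    have := card_le_card hsub
    rw [Fin.card_Iio] at this
    omega
  · intro h
    have hsub : Iic i ⊆ univ.filter fun j => k ≤ c j := fun j hj =>
      mem_filter.2 ⟨mem_univ _, h.trans (hc (mem_Iic.1 hj))⟩
    have := card_le_card hsub
    rw [Fin.card_Iic] at this
    omega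

theorem sum_le_sum_prefix {A B : ℕ → ℝ} (m : ℕ) (hA : ∀ i < m, ∀ j < m, i ≤ j → A j ≤ A i)
    (hA0 : ∀ i < m, 0 < A i) (hB0 : ∀ i < m, 0 ≤ B i)
    (h : ∀ j ≤ m, ∏ i ∈ range j, A i ≤ ∏ i ∈ range j, B i) :
    ∑ i ∈ range m, A i ≤ ∑ i ∈ range m, B i := by
  have hBp : ∀ i < m, 0 < B i := fun i hi => by
    rcases (hB0 i hi).eq_or_lt with h0 | h0
    · exfalso
      have h1 := h (i + 1) hi
      rw [prod_range_succ (f := B), ← h0, mul_zero] at h1
      have : 0 < ∏ j ∈ range (i + 1), A j := prod_pos fun j hj => hA0 j (by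
        have := mem_range.1 hj; omega)
      linarith
    · exact h0
  have hD : ∀ j ≤ m, 0 ≤ ∑ i ∈ range j, (Real.log (B i) - Real.log (A i)) := fun j hj => by
    have hlt : ∀ i ∈ range j, i < m := fun i hi => by have := mem_range.1 hi; omega
    rw [sum_sub_distrib, sub_nonneg, ← Real.log_prod fun i hi => (hA0 i (hlt i hi)).ne',
      ← Real.log_prod fun i hi => (hBp i (hlt i hi)).ne']
    exact Real.log_le_log (prod_pos fun i hi => hA0 i (hlt i hi)) (h j hj)
  suffices H : ∀ j ≤ m, ∀ c, 0 ≤ c → (∀ i < j, c ≤ A i) →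
      c * ∑ i ∈ range j, (Real.log (B i) - Real.log (A i)) ≤
        ∑ i ∈ range j, B i - ∑ i ∈ range j, A i by
    have h' := H m le_rfl 0 le_rfl fun i hi => (hA0 i hi).le
    simpa using h'
  intro j hj
  induction j with
  | zero => simp
  | succ j ih =>
    intro c _ hc
    have hjm : j < m := hj
    have h1 := ih hjm.le (A j) (hA0 j hjm).le fun i hi => hA i (by omega) j hjm hi.le
    have h2 : A j * (Real.log (B j) - Real.log (A j)) ≤ B j - A j := by
      rw [← Real.log_div (hBp j hjm).ne' (hA0 j hjm).ne']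
      have := mul_le_mul_of_nonneg_left
        (Real.log_le_sub_one_of_pos (div_pos (hBp j hjm) (hA0 j hjm))) (hA0 j hjm).le
      rwa [mul_sub, mul_one, mul_div_cancel₀ _ (hA0 j hjm).ne'] at this
    have h3 := mul_le_mul_of_nonneg_right (hc j (Nat.lt_succ_self j)) (hD (j + 1) hj)
    rw [sum_range_succ, mul_add, mul_add] at h3
    rw [sum_range_succ, sum_range_succ (f := B), sum_range_succ (f := A), mul_add]
    linarith

theorem prod_le_prod_top {n : ℕ} {B : Fin n → ℝ} (hB : Antitone B) (hB0 : ∀ i, 0 ≤ B i)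
    (t : Finset (Fin n)) :
    ∏ i ∈ t, B i ≤ ∏ k : Fin #t, B ⟨k, lt_of_lt_of_le k.2 ((card_le_univ t).trans_eq (by simp))⟩ := by
  set f := t.orderEmbOfFin rfl
  have e : ∏ i ∈ t, B i = ∏ k, B (f k) := by
    conv_lhs => rw [← map_orderEmbOfFin_univ t rfl, prod_map]
    rfl
  rw [e]
  refine Finset.prod_le_prod (fun _ _ => hB0 _) fun k _ => hB ?_
  show (k : ℕ) ≤ f k
  have hmono : StrictMono fun x => (f x : ℕ) := fun x y hxy => f.strictMono hxy
  obtain ⟨k, hk⟩ := k
  induction k with
  | zero => simp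
  | succ k ih =>
    have h1 := hmono (show (⟨k, by omega⟩ : Fin #t) < ⟨k + 1, hk⟩ by simp [Fin.lt_def])
    have h2 : k ≤ ((f ⟨k, by omega⟩ : Fin n) : ℕ) := ih (by omega) (mem_univ _)
    have h3 : ((f ⟨k, by omega⟩ : Fin n) : ℕ) < ((f ⟨k + 1, hk⟩ : Fin n) : ℕ) := h1
    show k + 1 ≤ ((f ⟨k + 1, hk⟩ : Fin n) : ℕ)
    omega

theorem sum_le_sum_of_weakMajor {α : Type*} [Fintype α] {a b : α → ℝ} (ha : ∀ x, 0 ≤ a x)
    (hb : ∀ x, 0 ≤ b x)
    (h : ∀ s : Finset α, ∃ t : Finset α, #t = #s ∧ ∏ x ∈ s, a x ≤ ∏ x ∈ t, b x) :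
    ∑ x, a x ≤ ∑ x, b x := by
  classical
  set n := Fintype.card α
  set e := (Fintype.equivFin α).symm
  set σ := (Tuple.sort fun i => OrderDual.toDual (a (e i))).trans e with hσ
  set τ := (Tuple.sort fun i => OrderDual.toDual (b (e i))).trans e with hτ
  have hσm : Antitone fun i => a (σ i) :=
    fun i j hij => Tuple.monotone_sort (fun i => OrderDual.toDual (a (e i))) hij
  have hτm : Antitone fun i => b (τ i) :=
    fun i j hij => Tuple.monotone_sort (fun i => OrderDual.toDual (b (e i))) hij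
  let A : ℕ → ℝ := fun i => if hi : i < n then a (σ ⟨i, hi⟩) else 0
  let B : ℕ → ℝ := fun i => if hi : i < n then b (τ ⟨i, hi⟩) else 0
  have hA' : ∀ i, 0 ≤ A i := fun i => by simp only [A]; split_ifs <;> simp [ha]
  have hB' : ∀ i, 0 ≤ B i := fun i => by simp only [B]; split_ifs <;> simp [hb]
  have hAanti : ∀ i < n, ∀ j < n, i ≤ j → A j ≤ A i := fun i hi j hj hij => by
    simp only [A, dif_pos hi, dif_pos hj]
    exact hσm (show (⟨i, hi⟩ : Fin n) ≤ ⟨j, hj⟩ from hij)
  have hpre : ∀ j ≤ n, ∏ i ∈ range j, A i ≤ ∏ i ∈ range j, B i := fun j hj => by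
    set s : Finset α := (univ : Finset (Fin j)).map
      ((Fin.castLEEmb hj).trans σ.toEmbedding)
    obtain ⟨t, htc, ht⟩ := h s
    have hs : #s = j := by simp [s]
    have e1 : ∏ x ∈ s, a x = ∏ i ∈ range j, A i := by
      rw [prod_map, ← Fin.prod_univ_eq_prod_range]
      refine prod_congr rfl fun i _ => ?_
      have hi : (i : ℕ) < n := i.2.trans_le hj
      simp only [A, dif_pos hi]
      rfl
    have e2 : ∏ x ∈ t, b x = ∏ i ∈ t.map τ.symm.toEmbedding, b (τ i) := by simp [prod_map]
    have e3 := prod_le_prod_top hτm (fun _ => hb _) (t.map τ.symm.toEmbedding)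
    rw [e1] at ht
    refine ht.trans (e2.le.trans (e3.trans (le_of_eq ?_)))
    have hc : #(t.map τ.symm.toEmbedding) = j := by rw [card_map, htc, hs]
    rw [Fin.prod_univ_eq_prod_range (fun i => if hi : i < n then b (τ ⟨i, hi⟩) else 0) j |>.symm]
    refine Fintype.prod_equiv (finCongr hc) _ _ fun i => ?_
    have hi : ((finCongr hc i : Fin j) : ℕ) < n := (finCongr hc i).2.trans_le hj
    simp only [dif_pos hi]
    rfl
  have hsum : ∀ (c : α → ℝ) (ρ : Fin n ≃ α),
      ∑ x, c x = ∑ i ∈ range n, (if hi : i < n then c (ρ ⟨i, hi⟩) else 0) := fun c ρ => by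
    rw [← Fin.sum_univ_eq_sum_range (fun i => if hi : i < n then c (ρ ⟨i, hi⟩) else 0)]
    exact (Fintype.sum_equiv ρ _ _ fun i => by simp).symm
  rw [hsum a σ, hsum b τ]
  change ∑ i ∈ range n, A i ≤ ∑ i ∈ range n, B i
  -- cut off the vanishing tail of `A`
  by_cases hz : ∀ i < n, 0 < A i
  · exact sum_le_sum_prefix n hAanti hz (fun i _ => hB' i) hpre
  push Not at hz
  set m := Nat.find hz
  obtain ⟨hmn, hm0⟩ : m < n ∧ A m ≤ 0 := Nat.find_spec hz
  have hpos : ∀ i < m, 0 < A i := fun i hi => by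
    have h1 : ¬ (i < n ∧ A i ≤ 0) := Nat.find_min hz hi
    by_contra h0
    exact h1 ⟨hi.trans hmn, not_lt.1 h0⟩
  have h1 := sum_le_sum_prefix m
    (fun i hi j hj => hAanti i (hi.trans hmn) j (hj.trans hmn)) hpos (fun i _ => hB' i)
    fun j hj => hpre j (hj.trans hmn.le)
  calc ∑ i ∈ range n, A i = ∑ i ∈ range m, A i := by
        refine (sum_subset (range_mono hmn.le) fun i hi hi' => ?_).symm
        rw [mem_range] at hi hi'
        exact le_antisymm ((hAanti m hmn i hi (not_lt.1 hi')).trans hm0) (hA' i)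
    _ ≤ ∑ i ∈ range m, B i := h1
    _ ≤ _ := sum_le_sum_of_subset_of_nonneg (range_mono hmn.le) fun i _ _ => hB' i

/-- One bit: a log-supermodular function of the set of sheets on which the bit is set, bounded by
the sorted products, has sum at most the product of the two-point sums. -/
theorem bits {N : ℕ} {G : Finset (Fin N) → ℝ} {a b : Fin N → ℝ} (hG : LSM G)
    (ha : ∀ i, 0 ≤ a i) (hb : ∀ i, 0 ≤ b i)
    (h : ∀ S, G S ≤ ∏ i : Fin N, if (i : ℕ) < #S then b i else a i) :
    ∑ S, G S ≤ ∏ i, (a i + b i) := by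
  classical
  have he : ∏ i, (a i + b i) = ∑ T : Finset (Fin N), ∏ i, if i ∈ T then b i else a i := by
    rw [prod_congr rfl fun i _ => add_comm (a i) (b i), Fintype.prod_add]
    refine sum_congr rfl fun T _ => ?_
    rw [prod_ite, filter_univ_mem]
    congr 1
    refine prod_congr ?_ fun _ _ => rfl
    ext i; simp
  rw [he]
  refine sum_le_sum_of_weakMajor hG.nonneg
    (fun T => prod_nonneg fun i _ => by split_ifs <;> simp [ha, hb]) fun s => ?_
  set c : Fin N → ℕ := fun i => #(s.filter fun S => i ∈ S) with hc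
  set π := Tuple.sort fun i => OrderDual.toDual (c i)
  have hanti : Antitone (c ∘ π) :=
    fun i j hij => Tuple.monotone_sort (fun i => OrderDual.toDual (c i)) hij
  refine ⟨s.map (Equiv.finsetCongr π.symm).toEmbedding, card_map _, ?_⟩
  refine (compress hG (fun S => S) s).trans ?_
  refine (Finset.prod_le_prod (fun k _ => hG.nonneg _) fun k _ => h _).trans (le_of_eq ?_)
  rw [prod_comm, prod_map, prod_comm (s := s)]
  refine prod_congr rfl fun i _ => ?_
  have hk : ∀ k, (i : ℕ) < #(Lev s (fun S => S) (k + 1)) ↔ k < c (π i) := fun k => by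
    have e : #(Lev s (fun S => S) (k + 1)) = #(univ.filter fun j => k + 1 ≤ (c ∘ π) j) := by
      refine card_equiv π.symm fun j => ?_
      simp [Lev, c]
    rw [e, lt_card_iff hanti]
    simp
  have hr : ((range #s).filter fun k => k < c (π i)) = range (c (π i)) := by
    ext k
    simp only [mem_filter, mem_range]
    exact ⟨fun h => h.2, fun h => ⟨h.trans_le (card_filter_le _ _), h⟩⟩
  have e1 : ∀ S : Finset (Fin N), i ∈ (Equiv.finsetCongr π.symm) S ↔ π i ∈ S := fun S => by
    simp [Equiv.finsetCongr]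
  simp only [hk, Equiv.coe_toEmbedding, e1, prod_ite, prod_const, hr, card_range]
  congr 2
  have h2 := card_filter_add_card_filter_not (s := range #s) fun k => k < c (π i)
  have h3 := card_filter_add_card_filter_not (s := s) fun S => π i ∈ S
  rw [hr, card_range, card_range] at h2
  simp only [hc] at h2 ⊢
  omega

/-- The lifting inequality on a cube. -/
theorem cube_fin {N : ℕ} : ∀ (M : ℕ) (f : (Fin M → Bool) → ℝ) (G : (Fin M → Finset (Fin N)) → ℝ),
    (∀ x, 0 ≤ f x) → LSM G →
    (∀ X, G X ≤ ∏ i : Fin N, f fun v => decide ((i : ℕ) < #(X v))) →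
    ∑ X, G X ≤ (∑ x, f x) ^ N
  | 0, f, G, hf, hG, h => by
    rw [Fintype.sum_unique, Fintype.sum_unique]
    refine (h _).trans_eq ?_
    rw [prod_congr rfl fun i _ => congrArg f (Subsingleton.elim _ default), prod_const, card_univ,
      Fintype.card_fin]
    exact congrArg (fun x => f x ^ N) (Subsingleton.elim _ _)
  | M + 1, f, G, hf, hG, h => by
    classical
    have hcons : ∀ (S T : Finset (Fin N)) (X Y : Fin M → Finset (Fin N)),
        ((Fin.cons S X : Fin (M + 1) → Finset (Fin N)) ⊓ Fin.cons T Y =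
          Fin.cons (S ⊓ T) (X ⊓ Y)) ∧
        ((Fin.cons S X : Fin (M + 1) → Finset (Fin N)) ⊔ Fin.cons T Y =
          Fin.cons (S ⊔ T) (X ⊔ Y)) := fun S T X Y =>
      ⟨funext fun v => Fin.cases (by simp) (by simp) v,
       funext fun v => Fin.cases (by simp) (by simp) v⟩
    have hG' : LSM fun X : Fin M → Finset (Fin N) => ∑ S, G (Fin.cons S X) :=
      ⟨fun X => sum_nonneg fun S _ => hG.nonneg _, fun X Y =>
        four_functions_theorem_univ _ _ _ _ (fun _ => hG.nonneg _) (fun _ => hG.nonneg _)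
          (fun _ => hG.nonneg _) (fun _ => hG.nonneg _) fun S T => by
            have := hG.mul_le (Fin.cons S X) (Fin.cons T Y)
            rwa [(hcons S T X Y).1, (hcons S T X Y).2] at this⟩
    have ih := cube_fin M (fun x => f (Fin.cons false x) + f (Fin.cons true x)) _
      (fun x => add_nonneg (hf _) (hf _)) hG' fun X => by
        refine bits ⟨fun S => hG.nonneg _, fun S T => ?_⟩ (fun _ => hf _) (fun _ => hf _)
          fun S => ?_
        · have := hG.mul_le (Fin.cons S X) (Fin.cons T X)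
          rwa [(hcons S T X X).1, (hcons S T X X).2, inf_idem, sup_idem] at this
        · refine (h _).trans_eq (prod_congr rfl fun i _ => ?_)
          by_cases hi : (i : ℕ) < #S
          · rw [if_pos hi]
            exact congrArg f (funext fun v => Fin.cases (by simp [hi]) (by simp) v)
          · rw [if_neg hi]
            exact congrArg f (funext fun v => Fin.cases (by simp [hi]) (by simp) v)
    have e1 : ∑ X, G X = ∑ X : Fin M → Finset (Fin N), ∑ S, G (Fin.cons S X) := by
      rw [← (Fin.consEquiv fun _ => Finset (Fin N)).sum_comp, Fintype.sum_prod_type, sum_comm]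
      rfl
    have e2 : ∑ x, f x = ∑ x : Fin M → Bool, (f (Fin.cons false x) + f (Fin.cons true x)) := by
      rw [← (Fin.consEquiv fun _ => Bool).sum_comp, Fintype.sum_prod_type, sum_comm]
      refine sum_congr rfl fun x _ => ?_
      rw [Fintype.sum_bool, add_comm]
      rfl
    rw [e1, e2]
    exact ih

theorem cube {ι : Type*} [Fintype ι] [DecidableEq ι] {N : ℕ} {f : (ι → Bool) → ℝ}
    {G : (ι → Finset (Fin N)) → ℝ} (hf : ∀ x, 0 ≤ f x) (hG : LSM G)
    (h : ∀ X, G X ≤ ∏ i : Fin N, f fun v => decide ((i : ℕ) < #(X v))) :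
    ∑ X, G X ≤ (∑ x, f x) ^ N := by
  set e := Fintype.equivFin ι
  have := cube_fin (N := N) _ (fun x => f (x ∘ e)) (fun X => G (X ∘ e)) (fun _ => hf _)
    ⟨fun _ => hG.nonneg _, fun X Y => hG.mul_le (X ∘ e) (Y ∘ e)⟩ fun X => h (X ∘ e)
  convert this using 2
  · exact Fintype.sum_equiv (Equiv.arrowCongr e (Equiv.refl _)) _ _ fun X => by
      exact congrArg G (funext fun v => by simp)
  · exact Fintype.sum_equiv (Equiv.arrowCongr e (Equiv.refl _)) _ _ fun X => by
      exact congrArg f (funext fun v => by simp)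

end Vale.Agent.P050.Lsm
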