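import Vale.Agent.P050.Lsm.Compress

/-!
For log-supermodular weights on finite distributive lattices, the weighted homomorphism sum of
every permutation lift of a bipartite graph is at most the `N`th power of the sum of the graph.
-/

namespace Vale.Agent.P050.Lsm

open Finset

theorem LSM.mul {α : Type*} [Lattice α] {f g : α → ℝ} (hf : LSM f) (hg : LSM g) :
    LSM fun x => f x * g x :=
  ⟨fun x => mul_nonneg (hf.nonneg x) (hg.nonneg x), fun x y => by
    calc f x * g x * (f y * g y) = (f x * f y) * (g x * g y) := by ring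
      _ ≤ (f (x ⊓ y) * f (x ⊔ y)) * (g (x ⊓ y) * g (x ⊔ y)) :=
          mul_le_mul (hf.mul_le x y) (hg.mul_le x y) (mul_nonneg (hg.nonneg _) (hg.nonneg _))
            (mul_nonneg (hf.nonneg _) (hf.nonneg _))
      _ = _ := by ring⟩

theorem LSM.prod {ι α : Type*} [Lattice α] (s : Finset ι) {f : ι → α → ℝ}
    (hf : ∀ i ∈ s, LSM (f i)) : LSM fun x => ∏ i ∈ s, f i x :=
  ⟨fun x => prod_nonneg fun i hi => (hf i hi).nonneg x, fun x y => by
    rw [← prod_mul_distrib, ← prod_mul_distrib]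
    exact Finset.prod_le_prod (fun i hi => mul_nonneg ((hf i hi).nonneg _) ((hf i hi).nonneg _))
      fun i hi => (hf i hi).mul_le x y⟩

theorem LSM.comp {α β : Type*} [Lattice α] [Lattice β] {f : β → ℝ} (hf : LSM f) {g : α → β}
    (hinf : ∀ x y, g (x ⊓ y) = g x ⊓ g y) (hsup : ∀ x y, g (x ⊔ y) = g x ⊔ g y) :
    LSM fun x => f (g x) :=
  ⟨fun x => hf.nonneg _, fun x y => by
    rw [hinf, hsup]
    exact hf.mul_le _ _⟩

/-- A function on a lattice, extended by zero to the sets. -/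
theorem LSM.extend {α β : Type*} [Lattice α] [Lattice β] {f : α → ℝ} (hf : LSM f) {g : α → β}
    (hg : Function.Injective g) (hinf : ∀ x y, g (x ⊓ y) = g x ⊓ g y)
    (hsup : ∀ x y, g (x ⊔ y) = g x ⊔ g y) : LSM (Function.extend g f 0) := by
  have hnn : ∀ x, 0 ≤ Function.extend g f 0 x := fun x => by
    rcases em (∃ a, g a = x) with ⟨a, rfl⟩ | h
    · rw [hg.extend_apply]; exact hf.nonneg a
    · rw [Function.extend_apply' _ _ _ h]; rfl
  refine ⟨hnn, fun x y => ?_⟩
  rcases em (∃ a, g a = x) with ⟨a, rfl⟩ | h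
  · rcases em (∃ b, g b = y) with ⟨b, rfl⟩ | h'
    · rw [← hinf, ← hsup]
      simp only [hg.extend_apply]
      exact hf.mul_le a b
    · rw [Function.extend_apply' f (0 : β → ℝ) y h']
      simpa using mul_nonneg (hnn _) (hnn _)
  · rw [Function.extend_apply' f (0 : β → ℝ) x h]
    simpa using mul_nonneg (hnn _) (hnn _)

variable {A B P Q : Type}

/-- The value of a lifted configuration on sheet `i`, at a vertex of the first side. -/
def rowA [Fintype P] {N : ℕ} (X : (A × P) ⊕ (B × Q) → Finset (Fin N)) (a : A) (i : Fin N) : Finset P :=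
  univ.filter fun p => i ∈ X (Sum.inl (a, p))

/-- The value of a lifted configuration on sheet `i`, at a vertex of the second side. -/
def rowB [Fintype Q] {N : ℕ} (X : (A × P) ⊕ (B × Q) → Finset (Fin N)) (b : B) (i : Fin N) : Finset Q :=
  univ.filter fun q => i ∈ X (Sum.inr (b, q))

theorem rowA_inf [Fintype P] [DecidableEq P] {N : ℕ} (X Y : (A × P) ⊕ (B × Q) → Finset (Fin N)) (a : A) (i : Fin N) :
    rowA (X ⊓ Y) a i = rowA X a i ⊓ rowA Y a i := by ext p; simp [rowA]

theorem rowA_sup [Fintype P] [DecidableEq P] {N : ℕ} (X Y : (A × P) ⊕ (B × Q) → Finset (Fin N)) (a : A) (i : Fin N) :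
    rowA (X ⊔ Y) a i = rowA X a i ⊔ rowA Y a i := by ext p; simp [rowA]

theorem rowB_inf [Fintype Q] [DecidableEq Q] {N : ℕ} (X Y : (A × P) ⊕ (B × Q) → Finset (Fin N)) (b : B) (i : Fin N) :
    rowB (X ⊓ Y) b i = rowB X b i ⊓ rowB Y b i := by ext q; simp [rowB]

theorem rowB_sup [Fintype Q] [DecidableEq Q] {N : ℕ} (X Y : (A × P) ⊕ (B × Q) → Finset (Fin N)) (b : B) (i : Fin N) :
    rowB (X ⊔ Y) b i = rowB X b i ⊔ rowB Y b i := by ext q; simp [rowB]

theorem prod_le_sorted {ι : Type*} [Fintype ι] [DecidableEq ι] {N : ℕ} {w : Finset ι → ℝ}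
    (hw : LSM w) (Z : Fin N → Finset ι) :
    ∏ i, w (Z i) ≤
      ∏ i : Fin N, w (univ.filter fun p => (i : ℕ) < #(univ.filter fun j => p ∈ Z j)) := by
  refine (compress hw Z univ).trans_eq ?_
  rw [card_univ, Fintype.card_fin, ← Fin.prod_univ_eq_prod_range]
  refine prod_congr rfl fun i _ => congrArg w ?_
  ext p
  simp [Lev]

theorem lift_le [Fintype A] [Fintype B] [DecidableEq A] [DecidableEq B] [Fintype P] [Fintype Q]
    [DecidableEq P] [DecidableEq Q] {L M : Type} [Fintype L] [Fintype M] [Lattice L] [Lattice M]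
    (g₁ : L → Finset P) (hg₁ : Function.Injective g₁)
    (hi₁ : ∀ x y, g₁ (x ⊓ y) = g₁ x ⊓ g₁ y) (hs₁ : ∀ x y, g₁ (x ⊔ y) = g₁ x ⊔ g₁ y)
    (g₂ : M → Finset Q) (hg₂ : Function.Injective g₂)
    (hi₂ : ∀ x y, g₂ (x ⊓ y) = g₂ x ⊓ g₂ y) (hs₂ : ∀ x y, g₂ (x ⊔ y) = g₂ x ⊔ g₂ y)
    {u : L → ℝ} (hu : LSM u) {v : M → ℝ} (hv : LSM v) {W : L → M → ℝ}
    (hW : LSM fun z : L × M => W z.1 z.2)
    (E : Finset (A × B)) {N : ℕ} (π : {e // e ∈ E} → Equiv.Perm (Fin N)) :
    ∑ σ : A → Fin N → L, ∑ τ : B → Fin N → M,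
        (∏ a, ∏ i, u (σ a i)) * (∏ b, ∏ i, v (τ b i)) *
          ∏ e : {e // e ∈ E}, ∏ i, W (σ e.1.1 i) (τ e.1.2 (π e i))
      ≤ (∑ σ : A → L, ∑ τ : B → M,
          (∏ a, u (σ a)) * (∏ b, v (τ b)) * ∏ e : {e // e ∈ E}, W (σ e.1.1) (τ e.1.2)) ^ N := by
  classical
  set w₁ := Function.extend g₁ u 0 with hw₁d
  set w₂ := Function.extend g₂ v 0 with hw₂d
  set g₃ : L × M → Finset P × Finset Q := fun z => (g₁ z.1, g₂ z.2)
  have hg₃ : Function.Injective g₃ := fun z z' h =>
    Prod.ext (hg₁ (congrArg Prod.fst h)) (hg₂ (congrArg Prod.snd h))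
  set K := Function.extend g₃ (fun z : L × M => W z.1 z.2) 0 with hKd
  have hw₁ : LSM w₁ := hu.extend hg₁ hi₁ hs₁
  have hw₂ : LSM w₂ := hv.extend hg₂ hi₂ hs₂
  have hK : LSM K := hW.extend hg₃ (fun x y => Prod.ext (hi₁ _ _) (hi₂ _ _))
    fun x y => Prod.ext (hs₁ _ _) (hs₂ _ _)
  let setA : ((A × P) ⊕ (B × Q) → Bool) → A → Finset P :=
    fun x a => univ.filter fun p => x (Sum.inl (a, p)) = true
  let setB : ((A × P) ⊕ (B × Q) → Bool) → B → Finset Q :=
    fun x b => univ.filter fun q => x (Sum.inr (b, q)) = true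
  let f : ((A × P) ⊕ (B × Q) → Bool) → ℝ := fun x => (∏ a, w₁ (setA x a)) *
    (∏ b, w₂ (setB x b)) * ∏ e : {e // e ∈ E}, K (setA x e.1.1, setB x e.1.2)
  let G : ((A × P) ⊕ (B × Q) → Finset (Fin N)) → ℝ := fun X => (∏ a, ∏ i, w₁ (rowA X a i)) *
    (∏ b, ∏ i, w₂ (rowB X b i)) *
      ∏ e : {e // e ∈ E}, ∏ i, K (rowA X e.1.1 i, rowB X e.1.2 (π e i))
  have hG : LSM G := by
    refine ((LSM.prod _ fun a _ => LSM.prod _ fun i _ => ?_).mul
      (LSM.prod _ fun b _ => LSM.prod _ fun i _ => ?_)).mul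
      (LSM.prod _ fun e _ => LSM.prod _ fun i _ => ?_)
    · exact hw₁.comp (fun X Y => rowA_inf X Y a i) fun X Y => rowA_sup X Y a i
    · exact hw₂.comp (fun X Y => rowB_inf X Y b i) fun X Y => rowB_sup X Y b i
    · exact hK.comp (fun X Y => Prod.ext (rowA_inf X Y _ i) (rowB_inf X Y _ _))
        fun X Y => Prod.ext (rowA_sup X Y _ i) (rowB_sup X Y _ _)
  have hf : ∀ x, 0 ≤ f x := fun x => mul_nonneg (mul_nonneg
    (prod_nonneg fun a _ => hw₁.nonneg _) (prod_nonneg fun b _ => hw₂.nonneg _))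
    (prod_nonneg fun e _ => hK.nonneg _)
  have hle : ∀ X, G X ≤ ∏ i : Fin N, f fun z => decide ((i : ℕ) < #(X z)) := by
    intro X
    simp only [G, f, prod_mul_distrib]
    rw [prod_comm (s := (univ : Finset (Fin N))) (t := (univ : Finset A)),
      prod_comm (s := (univ : Finset (Fin N))) (t := (univ : Finset B)),
      prod_comm (s := (univ : Finset (Fin N))) (t := (univ : Finset {e // e ∈ E}))]
    have hA : ∀ a, ∏ i, w₁ (rowA X a i) ≤
        ∏ i : Fin N, w₁ (setA (fun z => decide ((i : ℕ) < #(X z))) a) := fun a => by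
      refine (prod_le_sorted hw₁ fun i => rowA X a i).trans_eq ?_
      refine prod_congr rfl fun i _ => congrArg w₁ ?_
      ext p; simp [setA, rowA]
    have hB : ∀ b, ∏ i, w₂ (rowB X b i) ≤
        ∏ i : Fin N, w₂ (setB (fun z => decide ((i : ℕ) < #(X z))) b) := fun b => by
      refine (prod_le_sorted hw₂ fun i => rowB X b i).trans_eq ?_
      refine prod_congr rfl fun i _ => congrArg w₂ ?_
      ext p; simp [setB, rowB]
    refine mul_le_mul (mul_le_mul (Finset.prod_le_prod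
        (fun a _ => prod_nonneg fun i _ => hw₁.nonneg _) fun a _ => hA a)
      (Finset.prod_le_prod (fun b _ => prod_nonneg fun i _ => hw₂.nonneg _) fun b _ => hB b)
      (prod_nonneg fun b _ => prod_nonneg fun i _ => hw₂.nonneg _)
      (prod_nonneg fun a _ => prod_nonneg fun i _ => hw₁.nonneg _))
      (Finset.prod_le_prod (fun e _ => prod_nonneg fun i _ => hK.nonneg _) fun e _ => ?_)
      (prod_nonneg fun e _ => prod_nonneg fun i _ => hK.nonneg _)
      (mul_nonneg (prod_nonneg fun a _ => prod_nonneg fun i _ => hw₁.nonneg _)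
        (prod_nonneg fun b _ => prod_nonneg fun i _ => hw₂.nonneg _))
    -- the edge factor, on the lattice of subsets of `P ⊕ Q`
    have hw : LSM fun S : Finset (P ⊕ Q) => K (S.toLeft, S.toRight) :=
      hK.comp (fun S T => Prod.ext (by ext; simp) (by ext; simp))
        fun S T => Prod.ext (by ext; simp) (by ext; simp)
    have h := prod_le_sorted hw fun i => (rowA X e.1.1 i).disjSum (rowB X e.1.2 (π e i))
    simp only [toLeft_disjSum, toRight_disjSum] at h
    refine h.trans_eq (prod_congr rfl fun i _ => congrArg K (Prod.ext ?_ ?_))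
    · ext p
      have e0 : #(univ.filter fun j : Fin N => (Sum.inl p : P ⊕ Q) ∈
          (rowA X e.1.1 j).disjSum (rowB X e.1.2 (π e j))) = #(X (Sum.inl (e.1.1, p))) := by
        congr 1
        ext j
        simp [rowA, inl_mem_disjSum]
      rw [mem_toLeft, mem_filter]
      simp only [setA, mem_filter, mem_univ, true_and, decide_eq_true_eq, e0]
    · ext q
      have e0 : #(univ.filter fun j : Fin N => (Sum.inr q : P ⊕ Q) ∈
          (rowA X e.1.1 j).disjSum (rowB X e.1.2 (π e j))) = #(X (Sum.inr (e.1.2, q))) :=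
        card_equiv (π e) fun j => by simp [rowB, inr_mem_disjSum]
      rw [mem_toRight, mem_filter]
      simp only [setB, mem_filter, mem_univ, true_and, decide_eq_true_eq, e0]
  have key := cube hf hG hle
  let encG : (A → Fin N → L) × (B → Fin N → M) → ((A × P) ⊕ (B × Q) → Finset (Fin N)) :=
    fun st z => Sum.elim (fun ap => univ.filter fun i => ap.2 ∈ g₁ (st.1 ap.1 i))
      (fun bq => univ.filter fun i => bq.2 ∈ g₂ (st.2 bq.1 i)) z
  let encf : (A → L) × (B → M) → ((A × P) ⊕ (B × Q) → Bool) :=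
    fun st z => Sum.elim (fun ap => decide (ap.2 ∈ g₁ (st.1 ap.1)))
      (fun bq => decide (bq.2 ∈ g₂ (st.2 bq.1))) z
  have rA : ∀ st a i, rowA (encG st) a i = g₁ (st.1 a i) := fun st a i => by
    ext p; simp [rowA, encG]
  have rB : ∀ st b i, rowB (encG st) b i = g₂ (st.2 b i) := fun st b i => by
    ext p; simp [rowB, encG]
  have sA : ∀ st a, setA (encf st) a = g₁ (st.1 a) := fun st a => by ext p; simp [setA, encf]
  have sB : ∀ st b, setB (encf st) b = g₂ (st.2 b) := fun st b => by ext p; simp [setB, encf]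
  have hL : ∑ σ : A → Fin N → L, ∑ τ : B → Fin N → M,
      (∏ a, ∏ i, u (σ a i)) * (∏ b, ∏ i, v (τ b i)) *
        ∏ e : {e // e ∈ E}, ∏ i, W (σ e.1.1 i) (τ e.1.2 (π e i)) ≤ ∑ X, G X := by
    have hinj : Function.Injective encG := fun st st' h => Prod.ext
      (funext₂ fun a i => hg₁ (by rw [← rA, ← rA, h]))
      (funext₂ fun b i => hg₂ (by rw [← rB, ← rB, h]))
    rw [← Fintype.sum_prod_type' fun (σ : A → Fin N → L) (τ : B → Fin N → M) => (∏ a, ∏ i, u (σ a i)) *
      (∏ b, ∏ i, v (τ b i)) * ∏ e : {e // e ∈ E}, ∏ i, W (σ e.1.1 i) (τ e.1.2 (π e i))]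
    calc _ = ∑ st, G (encG st) := sum_congr rfl fun st _ => by
          simp only [G, rA, rB, hw₁d, hw₂d, hKd, hg₁.extend_apply, hg₂.extend_apply]
          congr 1
          refine prod_congr rfl fun e _ => prod_congr rfl fun i _ => ?_
          exact (hg₃.extend_apply (fun z : L × M => W z.1 z.2) 0 (_, _)).symm
      _ = ∑ X ∈ univ.image encG, G X := (sum_image hinj.injOn).symm
      _ ≤ _ := sum_le_univ_sum_of_nonneg hG.nonneg
  have hR : ∑ x, f x = ∑ σ : A → L, ∑ τ : B → M,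
      (∏ a, u (σ a)) * (∏ b, v (τ b)) * ∏ e : {e // e ∈ E}, W (σ e.1.1) (τ e.1.2) := by
    rw [← Fintype.sum_prod_type' fun (σ : A → L) (τ : B → M) =>
      (∏ a, u (σ a)) * (∏ b, v (τ b)) * ∏ e : {e // e ∈ E}, W (σ e.1.1) (τ e.1.2)]
    refine (Fintype.sum_of_injective encf (fun st st' h => Prod.ext
      (funext fun a => hg₁ (by rw [← sA, ← sA, h]))
      (funext fun b => hg₂ (by rw [← sB, ← sB, h]))) _ f (fun x hx => ?_) fun st => ?_).symm
    · by_contra hne
      obtain ⟨h12, _⟩ := mul_ne_zero_iff.1 hne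
      obtain ⟨h1, h2⟩ := mul_ne_zero_iff.1 h12
      rw [prod_ne_zero_iff] at h1 h2
      have e1 : ∀ a, ∃ s, g₁ s = setA x a := fun a => by
        by_contra h0
        exact h1 a (mem_univ _) (Function.extend_apply' _ _ _ h0)
      have e2 : ∀ b, ∃ t, g₂ t = setB x b := fun b => by
        by_contra h0
        exact h2 b (mem_univ _) (Function.extend_apply' _ _ _ h0)
      choose s hs using e1
      choose t ht using e2
      refine hx ⟨(s, t), funext fun z => ?_⟩
      rcases z with ⟨a, p⟩ | ⟨b, q⟩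
      · simp [encf, hs, setA]
      · simp [encf, ht, setB]
    · simp only [f, sA, sB, hw₁d, hw₂d, hKd, hg₁.extend_apply, hg₂.extend_apply]
      congr 1
      refine prod_congr rfl fun e _ => ?_
      exact (hg₃.extend_apply (fun z : L × M => W z.1 z.2) 0 (_, _)).symm
  rw [hR] at key
  exact hL.trans key

end Vale.Agent.P050.Lsm
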