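import Mathlib

/-!
The average over permutation lifts is at least the `m`th power of the edge density, up to a
polynomial factor: keep one pair of types.
-/

namespace Vale.Agent.P050.Lsm

open Finset

variable {L : Type} [DecidableEq L]

/-- The type of a sequence: how often each value occurs. -/
def ty {N : ℕ} (σ : Fin N → L) : L → Fin (N + 1) :=
  fun x => ⟨#(univ.filter fun i => σ i = x),
    Nat.lt_succ_of_le ((card_filter_le _ _).trans_eq (by simp))⟩

theorem ty_comp {N : ℕ} (σ : Fin N → L) (g : Equiv.Perm (Fin N)) : ty (σ ∘ g) = ty σ := by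
  funext x
  refine Fin.ext ?_
  show #(univ.filter fun i => (σ ∘ g) i = x) = #(univ.filter fun i => σ i = x)
  exact card_equiv g fun i => by simp

theorem exists_perm_of_ty_eq {N : ℕ} {σ σ' : Fin N → L} (h : ty σ = ty σ') :
    ∃ g : Equiv.Perm (Fin N), σ ∘ g = σ' := by
  have hc : ∀ x, Fintype.card {i // σ' i = x} = Fintype.card {i // σ i = x} := fun x => by
    rw [Fintype.card_subtype, Fintype.card_subtype]
    exact (congrArg Fin.val (congrFun h x)).symm
  exact ⟨Equiv.ofFiberEquiv fun x => Fintype.equivOfCardEq (hc x),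
    funext fun i => Equiv.ofFiberEquiv_map _ i⟩

variable {M : Type}

/-- The average over permutations of the product along a matched pair of sequences. -/
def avgW {N : ℕ} (W : L → M → ℝ) (σ : Fin N → L) (τ : Fin N → M) : ℝ :=
  ∑ g : Equiv.Perm (Fin N), ∏ i, W (σ i) (τ (g i))

omit [DecidableEq L] in
theorem avgW_comp_left {N : ℕ} (W : L → M → ℝ) (σ : Fin N → L) (τ : Fin N → M)
    (h : Equiv.Perm (Fin N)) : avgW W (σ ∘ h) τ = avgW W σ τ := by
  refine Fintype.sum_equiv (Equiv.mulRight h⁻¹) _ _ fun g => ?_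
  refine Fintype.prod_equiv h _ _ fun i => ?_
  simp

omit [DecidableEq L] in
theorem avgW_comp_right {N : ℕ} (W : L → M → ℝ) (σ : Fin N → L) (τ : Fin N → M)
    (h : Equiv.Perm (Fin N)) : avgW W σ (τ ∘ h) = avgW W σ τ := by
  refine Fintype.sum_equiv (Equiv.mulLeft h) _ _ fun g => ?_
  refine prod_congr rfl fun i _ => ?_
  simp

theorem pow_card_le [Fintype L] [Fintype M] [DecidableEq M] {N : ℕ} {A B : Type} [Fintype A] [Fintype B] [DecidableEq A] [DecidableEq B]
    (E : Finset (A × B)) {u : L → ℝ} {v : M → ℝ} {W : L → M → ℝ}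
    (hu : ∀ x, 0 ≤ u x) (hv : ∀ y, 0 ≤ v y) (hW : ∀ x y, 0 ≤ W x y)
    (hu1 : ∑ x, u x = 1) (hv1 : ∑ y, v y = 1) (Z : ℝ)
    (hZ : ∀ π : {e // e ∈ E} → Equiv.Perm (Fin N),
      ∑ σ : A → Fin N → L, ∑ τ : B → Fin N → M,
        (∏ a, ∏ i, u (σ a i)) * (∏ b, ∏ i, v (τ b i)) *
          ∏ e : {e // e ∈ E}, ∏ i, W (σ e.1.1 i) (τ e.1.2 (π e i)) ≤ Z ^ N) :
    ((∑ x, ∑ y, u x * v y * W x y) ^ N) ^ #E ≤
      ((N : ℝ) + 1) ^ ((Fintype.card L + Fintype.card M) * #E) * Z ^ N := by
  set p := ∑ x, ∑ y, u x * v y * W x y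
  let J : (L → Fin (N + 1)) × (M → Fin (N + 1)) → ℝ := fun rc =>
    ∑ σ ∈ univ.filter fun σ : Fin N → L => ty σ = rc.1,
      ∑ τ ∈ univ.filter fun τ : Fin N → M => ty τ = rc.2,
        ∏ i, u (σ i) * v (τ i) * W (σ i) (τ i)
  have hJ : ∑ rc, J rc = p ^ N := by
    have h1 : p = ∑ z : L × M, u z.1 * v z.2 * W z.1 z.2 :=
      (Fintype.sum_prod_type' fun x y => u x * v y * W x y).symm
    rw [Fintype.sum_prod_type, h1, Fintype.sum_pow]
    rw [← (Equiv.arrowProdEquivProdArrow (Fin N) (fun _ => L) (fun _ => M)).symm.sum_comp,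
      Fintype.sum_prod_type]
    simp only [J]
    change _ = ∑ σ : Fin N → L, ∑ τ : Fin N → M, ∏ i, u (σ i) * v (τ i) * W (σ i) (τ i)
    rw [← sum_fiberwise univ (fun σ : Fin N → L => ty σ)
      fun σ => ∑ τ : Fin N → M, ∏ i, u (σ i) * v (τ i) * W (σ i) (τ i)]
    refine sum_congr rfl fun r _ => ?_
    rw [sum_comm]
    refine sum_congr rfl fun σ _ => ?_
    exact sum_fiberwise univ (fun τ : Fin N → M => ty τ) _
  obtain ⟨⟨r, c⟩, -, hmax⟩ := exists_max_image (univ : Finset ((L → Fin (N + 1)) × (M → Fin (N + 1))))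
    J univ_nonempty
  have hbig : p ^ N ≤ ((N : ℝ) + 1) ^ (Fintype.card L + Fintype.card M) * J (r, c) := by
    rw [← hJ]
    refine (sum_le_card_nsmul _ _ _ hmax).trans_eq ?_
    simp [pow_add]
  set R := univ.filter fun σ : Fin N → L => ty σ = r
  set C := univ.filter fun τ : Fin N → M => ty τ = c
  set PU := ∑ σ ∈ R, ∏ i, u (σ i)
  set PV := ∑ τ ∈ C, ∏ i, v (τ i)
  have hPU : 0 ≤ PU ∧ PU ≤ 1 := by
    refine ⟨sum_nonneg fun σ _ => prod_nonneg fun i _ => hu _, ?_⟩
    calc PU ≤ ∑ σ : Fin N → L, ∏ i, u (σ i) :=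
          sum_le_univ_sum_of_nonneg fun σ => prod_nonneg fun i _ => hu _
      _ = 1 := by rw [← Fintype.sum_pow, hu1, one_pow]
  have hPV : 0 ≤ PV ∧ PV ≤ 1 := by
    refine ⟨sum_nonneg fun σ _ => prod_nonneg fun i _ => hv _, ?_⟩
    calc PV ≤ ∑ τ : Fin N → M, ∏ i, v (τ i) :=
          sum_le_univ_sum_of_nonneg fun τ => prod_nonneg fun i _ => hv _
      _ = 1 := by rw [← Fintype.sum_pow, hv1, one_pow]
  have hΦ0 : ∀ (σ : Fin N → L) (τ : Fin N → M), 0 ≤ avgW W σ τ := fun σ τ =>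
    sum_nonneg fun g _ => prod_nonneg fun i _ => hW _ _
  -- the average is constant on a pair of types and equals `N! J / (PU PV)`
  obtain ⟨Φ, hΦnn, hΦ⟩ : ∃ Φ, 0 ≤ Φ ∧ ∀ σ ∈ R, ∀ τ ∈ C, avgW W σ τ = Φ := by
    by_cases h : R.Nonempty ∧ C.Nonempty
    · obtain ⟨⟨σ₀, hσ₀⟩, τ₀, hτ₀⟩ := h
      refine ⟨avgW W σ₀ τ₀, hΦ0 _ _, fun σ hσ τ hτ => ?_⟩
      obtain ⟨g, rfl⟩ := exists_perm_of_ty_eq ((mem_filter.1 hσ₀).2.trans (mem_filter.1 hσ).2.symm)
      obtain ⟨g', rfl⟩ := exists_perm_of_ty_eq ((mem_filter.1 hτ₀).2.trans (mem_filter.1 hτ).2.symm)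
      rw [avgW_comp_left, avgW_comp_right]
    · exact ⟨0, le_rfl, fun σ hσ τ hτ => absurd ⟨⟨σ, hσ⟩, τ, hτ⟩ h⟩
  have hkey : (N.factorial : ℝ) * J (r, c) = PU * PV * Φ := by
    have h1 : ∀ g : Equiv.Perm (Fin N), J (r, c) =
        ∑ σ ∈ R, ∑ τ ∈ C, (∏ i, u (σ i)) * (∏ i, v (τ i)) * ∏ i, W (σ i) (τ (g i)) := by
      intro g
      refine sum_congr rfl fun σ _ => ?_
      refine sum_equiv (Equiv.arrowCongr g (Equiv.refl M)) (fun τ => ?_) fun τ _ => ?_
      · have e : (Equiv.arrowCongr g (Equiv.refl M)) τ = τ ∘ g.symm := rfl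
        simp only [C, mem_filter, mem_univ, true_and]
        rw [e, ty_comp]
      · rw [prod_mul_distrib, prod_mul_distrib]
        congr 1
        · congr 1
          exact Fintype.prod_equiv g _ _ fun i => by simp
        · simp
    calc (N.factorial : ℝ) * J (r, c)
        = ∑ g : Equiv.Perm (Fin N), J (r, c) := by simp [Fintype.card_perm]
      _ = ∑ g : Equiv.Perm (Fin N), ∑ σ ∈ R, ∑ τ ∈ C,
            (∏ i, u (σ i)) * (∏ i, v (τ i)) * ∏ i, W (σ i) (τ (g i)) := sum_congr rfl fun g _ => h1 g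
      _ = ∑ σ ∈ R, ∑ τ ∈ C, (∏ i, u (σ i)) * (∏ i, v (τ i)) * avgW W σ τ := by
          rw [sum_comm]
          refine sum_congr rfl fun σ _ => ?_
          rw [sum_comm]
          exact sum_congr rfl fun τ _ => by rw [avgW, mul_sum]
      _ = PU * PV * Φ := by
          rw [sum_mul_sum, sum_mul]
          refine sum_congr rfl fun σ hσ => ?_
          rw [sum_mul]
          exact sum_congr rfl fun τ hτ => by rw [hΦ σ hσ τ hτ]
  -- vertices off `E` are left free
  let SA : A → Finset (Fin N → L) := fun a => if a ∈ E.image Prod.fst then R else univ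
  let SB : B → Finset (Fin N → M) := fun b => if b ∈ E.image Prod.snd then C else univ
  have hall : ((N.factorial : ℝ) ^ #E) * Z ^ N ≥
      PU ^ #(E.image Prod.fst) * PV ^ #(E.image Prod.snd) * Φ ^ #E := by
    calc PU ^ #(E.image Prod.fst) * PV ^ #(E.image Prod.snd) * Φ ^ #E
        = ∑ σ ∈ Fintype.piFinset SA, ∑ τ ∈ Fintype.piFinset SB,
            (∏ a, ∏ i, u (σ a i)) * (∏ b, ∏ i, v (τ b i)) *
              ∏ e : {e // e ∈ E}, avgW W (σ e.1.1) (τ e.1.2) := by
          have eA : ∑ σ ∈ Fintype.piFinset SA, ∏ a, ∏ i, u (σ a i) =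
              PU ^ #(E.image Prod.fst) := by
            rw [← prod_univ_sum SA fun _ (σ : Fin N → L) => ∏ i, u (σ i)]
            have h0 : ∀ a, ∑ σ ∈ SA a, ∏ i, u (σ i) =
                if a ∈ E.image Prod.fst then PU else 1 := fun a => by
              simp only [SA]
              split_ifs
              · rfl
              · rw [← Fintype.sum_pow, hu1, one_pow]
            rw [prod_congr rfl fun a _ => h0 a, Fintype.prod_ite_mem, prod_const]
          have eB : ∑ τ ∈ Fintype.piFinset SB, ∏ b, ∏ i, v (τ b i) =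
              PV ^ #(E.image Prod.snd) := by
            rw [← prod_univ_sum SB fun _ (τ : Fin N → M) => ∏ i, v (τ i)]
            have h0 : ∀ a, ∑ τ ∈ SB a, ∏ i, v (τ i) =
                if a ∈ E.image Prod.snd then PV else 1 := fun a => by
              simp only [SB]
              split_ifs
              · rfl
              · rw [← Fintype.sum_pow, hv1, one_pow]
            rw [prod_congr rfl fun a _ => h0 a, Fintype.prod_ite_mem, prod_const]
          rw [← eA, ← eB, sum_mul_sum, sum_mul]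
          refine sum_congr rfl fun σ hσ => ?_
          rw [sum_mul]
          refine sum_congr rfl fun τ hτ => ?_
          congr 1
          rw [← Fintype.card_coe E, ← card_univ, ← prod_const]
          refine prod_congr rfl fun e _ => (hΦ _ ?_ _ ?_).symm
          · have := Fintype.mem_piFinset.1 hσ e.1.1
            simp only [SA, if_pos (mem_image_of_mem Prod.fst e.2)] at this
            exact this
          · have := Fintype.mem_piFinset.1 hτ e.1.2
            simp only [SB, if_pos (mem_image_of_mem Prod.snd e.2)] at this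
            exact this
      _ ≤ ∑ σ : A → Fin N → L, ∑ τ : B → Fin N → M,
            (∏ a, ∏ i, u (σ a i)) * (∏ b, ∏ i, v (τ b i)) *
              ∏ e : {e // e ∈ E}, avgW W (σ e.1.1) (τ e.1.2) := by
          have hnn : ∀ (σ : A → Fin N → L) (τ : B → Fin N → M),
              0 ≤ (∏ a, ∏ i, u (σ a i)) * (∏ b, ∏ i, v (τ b i)) *
                ∏ e : {e // e ∈ E}, avgW W (σ e.1.1) (τ e.1.2) := fun σ τ =>
            mul_nonneg (mul_nonneg (prod_nonneg fun _ _ => prod_nonneg fun _ _ => hu _)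
              (prod_nonneg fun _ _ => prod_nonneg fun _ _ => hv _))
              (prod_nonneg fun _ _ => hΦ0 _ _)
          refine (sum_le_univ_sum_of_nonneg fun σ => sum_nonneg fun τ _ => hnn σ τ).trans ?_
          exact sum_le_sum fun σ _ => sum_le_univ_sum_of_nonneg fun τ => hnn σ τ
      _ = ∑ π : {e // e ∈ E} → Equiv.Perm (Fin N), ∑ σ : A → Fin N → L, ∑ τ : B → Fin N → M,
            (∏ a, ∏ i, u (σ a i)) * (∏ b, ∏ i, v (τ b i)) *
              ∏ e : {e // e ∈ E}, ∏ i, W (σ e.1.1 i) (τ e.1.2 (π e i)) := by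
          symm
          rw [sum_comm]
          refine sum_congr rfl fun σ _ => ?_
          rw [sum_comm]
          refine sum_congr rfl fun τ _ => ?_
          simp only [avgW]
          rw [Fintype.prod_sum, mul_sum]
      _ ≤ ∑ _π : {e // e ∈ E} → Equiv.Perm (Fin N), Z ^ N := sum_le_sum fun π _ => hZ π
      _ = (N.factorial : ℝ) ^ #E * Z ^ N := by simp [Fintype.card_perm]
  have hfin : (J (r, c)) ^ #E ≤ Z ^ N := by
    refine le_of_mul_le_mul_left ?_ (by positivity : (0 : ℝ) < (N.factorial : ℝ) ^ #E)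
    rw [← mul_pow, hkey]
    refine le_trans ?_ hall
    rw [mul_pow, mul_pow]
    exact mul_le_mul_of_nonneg_right (mul_le_mul
      (pow_le_pow_of_le_one hPU.1 hPU.2 card_image_le)
      (pow_le_pow_of_le_one hPV.1 hPV.2 card_image_le) (pow_nonneg hPV.1 _) (pow_nonneg hPU.1 _))
      (pow_nonneg hΦnn _)
  have hp : 0 ≤ p := sum_nonneg fun x _ => sum_nonneg fun y _ =>
    mul_nonneg (mul_nonneg (hu x) (hv y)) (hW x y)
  calc (p ^ N) ^ #E ≤ (((N : ℝ) + 1) ^ (Fintype.card L + Fintype.card M) * J (r, c)) ^ #E :=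
        pow_le_pow_left₀ (pow_nonneg hp _) hbig _
    _ = ((N : ℝ) + 1) ^ ((Fintype.card L + Fintype.card M) * #E) * J (r, c) ^ #E := by
        rw [mul_pow, ← pow_mul]
    _ ≤ _ := mul_le_mul_of_nonneg_left hfin (by positivity)

/-- A polynomial factor disappears. -/
theorem le_of_pow_le {x z : ℝ} (hz : 0 ≤ z) (K : ℕ)
    (h : ∀ N : ℕ, x ^ N ≤ ((N : ℝ) + 1) ^ K * z ^ N) : x ≤ z := by
  by_contra hlt
  push Not at hlt
  have hx : 0 < x := hz.trans_lt hlt
  have hr : z / x < 1 := (div_lt_one hx).2 hlt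
  have h0 := (tendsto_pow_const_mul_const_pow_of_lt_one K (div_nonneg hz hx.le) hr).const_mul
    ((2 : ℝ) ^ K)
  rw [mul_zero] at h0
  obtain ⟨N, hN, hN1⟩ := ((h0.eventually_lt_const zero_lt_one).and
    (Filter.eventually_ge_atTop 1)).exists
  have h1 := h N
  have h2 : ((N : ℝ) + 1) ^ K ≤ 2 ^ K * (N : ℝ) ^ K := by
    rw [← mul_pow]
    refine pow_le_pow_left₀ (by positivity) ?_ K
    have : (1 : ℝ) ≤ N := by exact_mod_cast hN1
    linarith
  have h3 : x ^ N ≤ 2 ^ K * (N : ℝ) ^ K * z ^ N :=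
    h1.trans (mul_le_mul_of_nonneg_right h2 (pow_nonneg hz _))
  rw [div_pow, ← mul_assoc, ← mul_div_assoc, div_lt_one (pow_pos hx N)] at hN
  linarith

end Vale.Agent.P050.Lsm
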