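import Vale.Agent.P050.Lsm.Lift
import Vale.Agent.P050.Lsm.Types

/-!
Sidorenko's inequality for every bipartite graph and every log-supermodular host on finite
distributive lattices, in particular for every host with two vertex types on one side.
-/

namespace Vale.Agent.P050.Lsm

open Finset

variable {A B : Type} [Fintype A] [Fintype B] [DecidableEq A] [DecidableEq B]

theorem sidorenko_lsm {L M : Type} [DistribLattice L] [Fintype L] [DistribLattice M] [Fintype M]
    (E : Finset (A × B)) {u : L → ℝ} {v : M → ℝ} {W : L → M → ℝ}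
    (hu : LSM u) (hv : LSM v) (hW : LSM fun z : L × M => W z.1 z.2)
    (hu1 : ∑ x, u x = 1) (hv1 : ∑ y, v y = 1) :
    (∑ x, ∑ y, u x * v y * W x y) ^ #E ≤
      ∑ σ : A → L, ∑ τ : B → M,
        (∏ a, u (σ a)) * (∏ b, v (τ b)) * ∏ e ∈ E, W (σ e.1) (τ e.2) := by
  classical
  set g₁ := LatticeHom.birkhoffFinset (α := L) with hg₁
  set g₂ := LatticeHom.birkhoffFinset (α := M) with hg₂
  have hi₁ : Function.Injective g₁ := (OrderEmbedding.birkhoffFinset (α := L)).injective
  have hi₂ : Function.Injective g₂ := (OrderEmbedding.birkhoffFinset (α := M)).injective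
  have hlift : ∀ (N : ℕ) (π : {e // e ∈ E} → Equiv.Perm (Fin N)), _ :=
    fun N π => lift_le (A := A) (B := B) g₁ hi₁ (map_inf g₁) (map_sup g₁) g₂ hi₂ (map_inf g₂)
      (map_sup g₂) hu hv hW E π
  have hnn : ∀ x y, 0 ≤ W x y := fun x y => hW.nonneg (x, y)
  refine le_of_pow_le (sum_nonneg fun σ _ => sum_nonneg fun τ _ => mul_nonneg (mul_nonneg
    (prod_nonneg fun a _ => hu.nonneg _) (prod_nonneg fun b _ => hv.nonneg _))
    (prod_nonneg fun e _ => hnn _ _)) ((Fintype.card L + Fintype.card M) * #E) fun N => ?_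
  rw [pow_right_comm]
  refine pow_card_le (N := N) E hu.nonneg hv.nonneg hnn hu1 hv1 _ fun π => (hlift N π).trans_eq ?_
  congr 1
  refine sum_congr rfl fun σ _ => sum_congr rfl fun τ _ => ?_
  congr 1
  exact prod_coe_sort E fun e => W (σ e.1) (τ e.2)

theorem lsm_linearOrder {X : Type*} [LinearOrder X] {f : X → ℝ} (h : ∀ x, 0 ≤ f x) :
    LSM f :=
  ⟨h, fun x y => by
    rcases le_total x y with hxy | hxy
    · simp [hxy]
    · simp [hxy, mul_comm]⟩

/-- Every `2 × q` kernel, in a suitable order of its columns, is log-supermodular. -/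
theorem sidorenko_two {Y : Type} [Fintype Y] (E : Finset (A × B)) {u : Fin 2 → ℝ} {v : Y → ℝ}
    {W : Fin 2 → Y → ℝ} (hu : ∀ x, 0 ≤ u x) (hv : ∀ y, 0 ≤ v y) (hW : ∀ x y, 0 ≤ W x y)
    (hu1 : ∑ x, u x = 1) (hv1 : ∑ y, v y = 1) :
    (∑ x, ∑ y, u x * v y * W x y) ^ #E ≤
      ∑ σ : A → Fin 2, ∑ τ : B → Y,
        (∏ a, u (σ a)) * (∏ b, v (τ b)) * ∏ e ∈ E, W (σ e.1) (τ e.2) := by
  classical
  let r : Y → ℝ := fun y => W 1 y / (W 0 y + W 1 y)
  set e₀ := (Fintype.equivFin Y).symm
  set η := (Tuple.sort (r ∘ e₀)).trans e₀ with hη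
  have hmono : Monotone fun i => r (η i) := Tuple.monotone_sort (r ∘ e₀)
  have hord : ∀ i j, j ≤ i → W 0 (η i) * W 1 (η j) ≤ W 0 (η j) * W 1 (η i) := by
    intro i j hij
    have h := hmono hij
    have h0i := hW 0 (η i)
    have h1i := hW 1 (η i)
    have h0j := hW 0 (η j)
    have h1j := hW 1 (η j)
    simp only [r] at h
    rcases eq_or_lt_of_le (add_nonneg h0i h1i) with hi | hi
    · have : W 0 (η i) = 0 := by linarith
      rw [this, zero_mul]
      positivity
    rcases eq_or_lt_of_le (add_nonneg h0j h1j) with hj | hj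
    · have : W 1 (η j) = 0 := by linarith
      rw [this, mul_zero]
      positivity
    rw [div_le_div_iff₀ hj hi] at h
    nlinarith
  have hLSM : LSM fun z : Fin 2 × Fin (Fintype.card Y) => W z.1 (η z.2) := by
    refine ⟨fun z => hW _ _, ?_⟩
    rintro ⟨x, i⟩ ⟨x', j⟩
    simp only [Prod.mk_inf_mk, Prod.mk_sup_mk]
    fin_cases x <;> fin_cases x' <;> rcases le_total i j with h | h <;>
      simp [h, mul_comm] <;> first
        | exact hord _ _ h
        | (have := hord _ _ h; linarith)
  have key := sidorenko_lsm (A := A) (B := B) E (lsm_linearOrder hu)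
    (lsm_linearOrder (f := fun i => v (η i)) fun _ => hv _) (W := fun x i => W x (η i)) hLSM hu1
    ((η.sum_comp v).trans hv1)
  calc (∑ x, ∑ y, u x * v y * W x y) ^ #E
      = (∑ x, ∑ i, u x * v (η i) * W x (η i)) ^ #E := by
        congr 1
        exact sum_congr rfl fun x _ => (η.sum_comp fun y => u x * v y * W x y).symm
    _ ≤ _ := key
    _ = _ := by
        refine sum_congr rfl fun σ _ => ?_
        exact Fintype.sum_equiv (Equiv.arrowCongr (Equiv.refl B) η) _ _ fun τ => by simp

end Vale.Agent.P050.Lsm
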